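import Vale.Agent.P230.Main
import Vale.Agent.P230.Lattice
import Vale.Agent.P230.Gauss
import Vale.Agent.P230.Reduce
import Vale.Agent.P230.Upper

namespace Vale.Agent.Results.P230.CoveringDensityNLogN

open Vale.Agent.P230 Filter

/-- The worst translative covering density of convex bodies is of order `n log n`. -/
theorem result :
    (∃ c : ℝ, 0 < c ∧ ∀ᶠ n : ℕ in atTop, ∃ K : Set (E n), IsBody K ∧
      ENNReal.ofReal (c * (n * Real.log n)) ≤ thetaT K ∧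
      ENNReal.ofReal (c * (n * Real.log n)) ≤ thetaL K) ∧
    (¬ ∃ C : ℝ, ∀ (n : ℕ), 1 ≤ n → ∀ K : Set (E n), IsBody K →
      thetaT K ≤ ENNReal.ofReal (C * n)) ∧
    ∃ C : ℝ, 0 < C ∧ ∀ n : ℕ, 2 ≤ n → ∀ K : Set (E n), IsBody K →
      thetaT K ≤ ENNReal.ofReal (C * (n * Real.log n)) := by
  obtain ⟨⟨c, hc, h⟩, hno⟩ := main_of gaussFacts reduceStmt
  refine ⟨⟨c, hc, ?_⟩, hno, thetaT_le_rogers⟩
  filter_upwards [h] with n hn
  obtain ⟨K, hK, hθ⟩ := hn
  exact ⟨K, hK, hθ, hθ.trans (thetaT_le_thetaL K)⟩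

end Vale.Agent.Results.P230.CoveringDensityNLogN
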